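import Vale.Agent.P015.Line

namespace Vale.Agent.Results.P015.MoatsNearCurves

open Vale.Agent.P015 Filter Topology

theorem result :
    (∀ a b c : ℝ, (a ≠ 0 ∨ b ≠ 0) →
      (∀ r N : ℝ, ∃ u v : ℝ, a * u + b * v = c ∧ N ≤ u ^ 2 + v ^ 2 ∧ ∀ z : GaussianInt,
        ((z.re : ℝ) - u) ^ 2 + ((z.im : ℝ) - v) ^ 2 ≤ r ^ 2 → ¬ Prime z) ∧
      ∀ D w : ℝ, ¬ ∃ p : ℕ → GaussianInt, Function.Injective p ∧ (∀ n, Prime (p n)) ∧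
        (∀ n, (((p (n + 1)).re : ℝ) - (p n).re) ^ 2 + (((p (n + 1)).im : ℝ) - (p n).im) ^ 2
          ≤ D ^ 2) ∧
        (∀ n, ∃ u v : ℝ, a * u + b * v = c ∧
          (((p n).re : ℝ) - u) ^ 2 + (((p n).im : ℝ) - v) ^ 2 ≤ w ^ 2)) ∧
    ∀ (f f' : ℝ → ℝ) (L X₀ : ℝ), (∀ x, X₀ ≤ x → HasDerivAt f (f' x) x) →
      Tendsto f' atTop (𝓝 L) →
      (∀ r N : ℝ, ∃ x : ℝ, N ≤ x ∧ ∀ z : GaussianInt,
        ((z.re : ℝ) - x) ^ 2 + ((z.im : ℝ) - f x) ^ 2 ≤ r ^ 2 → ¬ Prime z) ∧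
      (∀ r N : ℝ, ∃ x : ℝ, N ≤ x ∧ ∀ z : GaussianInt,
        ((z.re : ℝ) - f x) ^ 2 + ((z.im : ℝ) - x) ^ 2 ≤ r ^ 2 → ¬ Prime z) ∧
      (∀ D w : ℝ, ¬ ∃ p : ℕ → GaussianInt, Function.Injective p ∧ (∀ n, Prime (p n)) ∧
        (∀ n, (((p (n + 1)).re : ℝ) - (p n).re) ^ 2 + (((p (n + 1)).im : ℝ) - (p n).im) ^ 2
          ≤ D ^ 2) ∧
        (∀ n, ∃ x : ℝ, X₀ ≤ x ∧
          (((p n).re : ℝ) - x) ^ 2 + (((p n).im : ℝ) - f x) ^ 2 ≤ w ^ 2)) ∧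
      (∀ D w : ℝ, ¬ ∃ p : ℕ → GaussianInt, Function.Injective p ∧ (∀ n, Prime (p n)) ∧
        (∀ n, (((p (n + 1)).re : ℝ) - (p n).re) ^ 2 + (((p (n + 1)).im : ℝ) - (p n).im) ^ 2
          ≤ D ^ 2) ∧
        (∀ n, ∃ x : ℝ, X₀ ≤ x ∧
          (((p n).re : ℝ) - f x) ^ 2 + (((p n).im : ℝ) - x) ^ 2 ≤ w ^ 2)) := by
  refine ⟨fun a b c hab => ⟨exists_prime_free_disc_line c hab,
    fun D w => no_walk_near_line c hab D w⟩, fun f f' L X₀ hf hlim => ?_⟩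
  refine ⟨exists_prime_free_disc (asympSlope_of_deriv hf hlim), fun r N => ?_,
    fun D w => no_walk_near_graph hf hlim D w, fun D w => no_walk_near_transposed hf hlim D w⟩
  obtain ⟨x, hx, hfree⟩ := exists_prime_free_disc (asympSlope_of_deriv hf hlim) r N
  refine ⟨x, hx, fun z hz hzp => hfree (swapReIm z) ?_ (prime_swapReIm hzp)⟩
  simpa [swapReIm, add_comm] using hz

end Vale.Agent.Results.P015.MoatsNearCurves
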